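import Mathlib

/-!
# P338: deterministic multitape Turing machines and integer multiplication

The model of the problem file: one fixed machine with a finite alphabet, a finite set of states and
`k` one-dimensional tapes, each with a leftmost cell (cells are numbered `0, 1, 2, ...`).
Cost is the number of steps.
-/

namespace Vale.Agent.Lib.P338

/-- The four symbols that every machine must have: blank, the bits `0` and `1`, the separator. -/
inductive Sym : Type
  | blank
  | zero
  | one
  | sep

/-- Head moves. -/
inductive Move : Type
  | left
  | stay
  | right

/-- The effect of a move on a head position; a left move on the leftmost cell stays put. -/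
def Move.apply : Move → ℕ → ℕ
  | Move.left, p => p - 1
  | Move.stay, p => p
  | Move.right, p => p + 1

/-- A deterministic Turing machine with `k` tapes.  `δ q a = none` means that the machine halts in
state `q` when reading the symbols `a`; otherwise `δ q a` is the new state and, for each tape, the
symbol written and the move of the head.  `inp` is the (first) tape holding the input and `out` is
the designated output tape. -/
structure Machine (k : ℕ) : Type 1 where
  Q : Type
  Γ : Type
  finQ : Finite Q
  finΓ : Finite Γ
  start : Q
  sym : Sym → Γ
  sym_inj : Function.Injective sym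
  δ : Q → (Fin k → Γ) → Option (Q × (Fin k → Γ × Move))
  inp : Fin k
  out : Fin k

/-- A configuration: state, head positions and tape contents. -/
structure Cfg {k : ℕ} (M : Machine k) : Type where
  q : M.Q
  head : Fin k → ℕ
  tape : Fin k → ℕ → M.Γ

/-- One step of the machine (`none` if the configuration is halting). -/
def step {k : ℕ} (M : Machine k) (c : Cfg M) : Option (Cfg M) :=
  (M.δ c.q (fun i => c.tape i (c.head i))).map fun r =>
    { q := r.1
      head := fun i => (r.2 i).2.apply (c.head i)
      tape := fun i => Function.update (c.tape i) (c.head i) (r.2 i).1 }

/-- `run M t c` is the configuration after exactly `t` steps from `c`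
(`none` if the machine halted earlier). -/
def run {k : ℕ} (M : Machine k) : ℕ → Cfg M → Option (Cfg M)
  | 0, c => some c
  | t + 1, c => (step M c).bind (run M t)

/-- The symbol of a bit. -/
def bitSym : Bool → Sym
  | false => Sym.zero
  | true => Sym.one

/-- Cell `i` of the input word `x # y` (blank beyond the word); `x 0` is the leftmost bit. -/
def inputCell {n : ℕ} (x y : Fin n → Bool) (i : ℕ) : Sym :=
  if h : i < n then bitSym (x ⟨i, h⟩)
  else if i = n then Sym.sep
  else if h : i - (n + 1) < n then bitSym (y ⟨i - (n + 1), h⟩)
  else Sym.blank

/-- The initial configuration on input `x # y`: the input is on tape `inp`, the other tapes are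
blank and all heads are on the leftmost cell. -/
def init {k : ℕ} (M : Machine k) {n : ℕ} (x y : Fin n → Bool) : Cfg M where
  q := M.start
  head := fun _ => 0
  tape := fun j i => if j = M.inp then M.sym (inputCell x y i) else M.sym Sym.blank

/-- The value of a binary string, leftmost bit most significant. -/
def val {n : ℕ} (x : Fin n → Bool) : ℕ := ∑ i : Fin n, (x i).toNat * 2 ^ (n - 1 - (i : ℕ))

/-- The `i`-th bit from the left of `bin_k z`, the binary representation of `z` padded to
length `k`. -/
def binDigit (k z i : ℕ) : Bool := z.testBit (k - 1 - i)

/-- On input `x # y` the machine halts after exactly `t` steps, in configuration `c`. -/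
def HaltsWith {k : ℕ} (M : Machine k) {n : ℕ} (x y : Fin n → Bool) (t : ℕ) (c : Cfg M) : Prop :=
  run M t (init M x y) = some c ∧ step M c = none

/-- `M` multiplies: on every input `x # y` with `|x| = |y| = n ≥ 1` it halts with
`bin_{2n}(val x * val y)` in the first `2n` cells of the output tape.
(Nothing is required of the other cells.) -/
def Multiplies {k : ℕ} (M : Machine k) : Prop :=
  ∀ n : ℕ, 1 ≤ n → ∀ x y : Fin n → Bool, ∃ (t : ℕ) (c : Cfg M), HaltsWith M x y t c ∧
    ∀ i : ℕ, i < 2 * n → c.tape M.out i = M.sym (bitSym (binDigit (2 * n) (val x * val y) i))

/-- The running time on input `x # y` (the number of steps until the machine halts). -/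
noncomputable def haltTime {k : ℕ} (M : Machine k) {n : ℕ} (x y : Fin n → Bool) : ℕ :=
  sInf {t : ℕ | ∃ c : Cfg M, HaltsWith M x y t c}

/-- `T_A(n)`: the worst-case running time over the inputs `x # y` with `|x| = |y| = n`. -/
noncomputable def worstTime {k : ℕ} (M : Machine k) (n : ℕ) : ℕ :=
  Finset.univ.sup fun p : (Fin n → Bool) × (Fin n → Bool) => haltTime M p.1 p.2

end Vale.Agent.Lib.P338
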